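import Crest.Agent.R213.Iface

/-! Row 213, shrinker: definitions.  Unknown `S = Σ`, parameters `a = Σ(0)`, `b = 1/(2c)`;
`g = Kg S`, `F = 1 - y g`, `Σ' = b - ψ(y,F)/2` with the clamped reciprocal `ψ`; `θ = y d/dy`. -/

set_option autoImplicit false
open Set Filter Topology

noncomputable section
namespace Crest.Agent.R213.Ea

/-- `1/F` on `[lo,hi]`, continued by its tangent lines -/
def tl (lo hi F : ℝ) : ℝ :=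
  1 / max lo (min F hi) - (F - max lo (min F hi)) / max lo (min F hi) ^ 2
def tau (y : ℝ) : ℝ := max 0 (min 1 ((y - 50) / 14))
def psi (y F : ℝ) : ℝ := (1 - tau y) * tl (3 / 20) 2 F + tau y * tl (7 / 10) (18 / 25) F

def Kg (S : ℝ → ℝ) (y : ℝ) : ℝ := ∫ s in (0:ℝ)..1, (s ^ 9 - s ^ 10) * S (s * y)
def Kr (S : ℝ → ℝ) (y : ℝ) : ℝ := ∫ s in (0:ℝ)..1, s ^ 9 * S (s * y)
def FF (S : ℝ → ℝ) (y : ℝ) : ℝ := 1 - y * Kg S y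
/-- `θ F` -/
def F1 (S : ℝ → ℝ) (y : ℝ) : ℝ := -(y * (Kr S y - 10 * Kg S y))
/-- `θ² F` -/
def F2 (S : ℝ → ℝ) (y : ℝ) : ℝ := 90 * (1 - FF S y) - 19 * F1 S y - y * S y
def pp (S : ℝ → ℝ) (y : ℝ) : ℝ := y ^ 11 * Kg S y
def rr (S : ℝ → ℝ) (y : ℝ) : ℝ := y ^ 10 * Kr S y

/-- solution of the clamped Volterra equation -/
def IsSol (a b : ℝ) (S : ℝ → ℝ) : Prop :=
  Continuous S ∧ ∀ y, 0 ≤ y → S y = a + ∫ t in (0:ℝ)..y, (b - psi t (FF S t) / 2)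

/-- the range in which the clamp is inactive -/
def Rng (y F : ℝ) : Prop := 3 / 20 ≤ F ∧ F ≤ 2 ∧ (50 ≤ y → 7 / 10 ≤ F ∧ F ≤ 18 / 25)

/-- `P(m) = (m-1)(m+9)(m+10)` at `m = -2 i` -/
def Pm (i : ℕ) : ℤ := (-2 * (i : ℤ) - 1) * (-2 * i + 9) * (-2 * i + 10)

/-- coefficients of the formal solution `∑ f_j y^{-2j}` -/
def fc (c : ℝ) : ℕ → ℝ
  | 0 => c
  | j + 1 => -2 * c * (90 * fc c j +
      ∑ i : Fin (j + 1), (Pm i : ℝ) * fc c (j - i) * fc c i)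
decreasing_by all_goals omega

/-- `θ^i` of the truncated formal solution -/
def Fa (b : ℝ) (k i : ℕ) (y : ℝ) : ℝ :=
  ∑ j ∈ Finset.range (k + 1), (-2 * (j : ℝ)) ^ i * fc (1 / (2 * b)) j / y ^ (2 * j)

def om (y : ℝ) : ℝ := y ^ (2 / 3 : ℝ)

def X0 (b : ℝ) (k : ℕ) (S : ℝ → ℝ) (y : ℝ) : ℝ := y ^ 6 * (FF S y - Fa b k 0 y)
def X1 (b : ℝ) (k : ℕ) (S : ℝ → ℝ) (y : ℝ) : ℝ :=
  y ^ 6 * (6 * (FF S y - Fa b k 0 y) + (F1 S y - Fa b k 1 y)) / om y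
def X2 (b : ℝ) (k : ℕ) (S : ℝ → ℝ) (y : ℝ) : ℝ :=
  y ^ 6 * (36 * (FF S y - Fa b k 0 y) + 12 * (F1 S y - Fa b k 1 y) + (F2 S y - Fa b k 2 y)) / om y ^ 2

def TailOK (b : ℝ) (k : ℕ) (R : ℝ) : Prop := ∀ y : ℝ, 64 ≤ y →
  701 / 1000 ≤ Fa b k 0 y ∧ Fa b k 0 y ≤ 719 / 1000 ∧
  |y ^ 4 * (Fa b k 3 y + 18 * Fa b k 2 y + 71 * Fa b k 1 y - 90 * Fa b k 0 y + 90 -
    y ^ 2 * (1 / (2 * Fa b k 0 y) - b))| ≤ R / 20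

/-- what the computer checks -/
def StFin : Prop := ∃ (a0 a1 a2 b0 b1 b2 lam : ℝ) (k : ℕ), 0 < lam ∧ lam ≤ 1 ∧
  ∀ x1 x2 : ℝ, |x1| ≤ 1 → |x2| ≤ 1 →
    0 < a0 + x1 * a1 + x2 * a2 ∧ 0 < b0 + x1 * b1 + x2 * b2 ∧
    TailOK (b0 + x1 * b1 + x2 * b2) k (7 / 10 * lam) ∧
    ∀ S, IsSol (a0 + x1 * a1 + x2 * a2) (b0 + x1 * b1 + x2 * b2) S →
      (∀ y ∈ Icc (0:ℝ) 64, Rng y (FF S y)) ∧
      |X0 (b0 + x1 * b1 + x2 * b2) k S 64 - X1 (b0 + x1 * b1 + x2 * b2) k S 64 +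
        X2 (b0 + x1 * b1 + x2 * b2) k S 64| ≤ 7 / 10 * lam ∧
      |X0 (b0 + x1 * b1 + x2 * b2) k S 64 + X1 (b0 + x1 * b1 + x2 * b2) k S 64 - lam * x1| ≤ lam / 10 ∧
      |X1 (b0 + x1 * b1 + x2 * b2) k S 64 + X2 (b0 + x1 * b1 + x2 * b2) k S 64 - lam * x2| ≤ lam / 10

/-- a global solution on which the clamp is inactive -/
def TrueSol (a b : ℝ) (S : ℝ → ℝ) : Prop := IsSol a b S ∧ 0 < a ∧ ∀ y, 0 ≤ y → Rng y (FF S y)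

end Crest.Agent.R213.Ea
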